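import Vale.Agent.P004F.Ra.Ra
import Vale.Agent.P014U.Base

/-! # P014U, port of P004F, block RA: the words -/

set_option linter.all false

namespace Vale.Agent.P014U.X4F.Ra

export Vale.Agent.P004F.Ra (aH aH_one ac_mul ac_one ac_sm ac_neg ac_map)

theorem two_smul_zero [Pp] {R M : Type} [CommRing R] [AddCommGroup M] [Module R M] {N : ℕ}
    (h : (pp : R) ^ N = 0) (x : M) : pp ^ N • x = 0 := by
  rw [← Nat.cast_smul_eq_nsmul R, Nat.cast_pow, h, zero_smul]

end Vale.Agent.P014U.X4F.Ra
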